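import Vale.Agent.Borsuk.Table

/-! # P052: the search for cliques with six vertices, part 0 -/

namespace Vale.Agent.Borsuk

theorem chunk0 : chunk 4 8 (idx321.drop 0) = true := by decide +kernel

theorem chunk6 : chunk 4 8 (idx321.drop 48) = true := by decide +kernel

theorem chunk12 : chunk 4 10 (idx321.drop 96) = true := by decide +kernel

theorem chunk18 : chunk 4 12 (idx321.drop 160) = true := by decide +kernel

end Vale.Agent.Borsuk
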