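import Vale.Agent.Borsuk.Table

/-! # P052: the search for cliques with six vertices, part 2 -/

namespace Vale.Agent.Borsuk

theorem chunk2 : chunk 4 8 (idx321.drop 16) = true := by decide +kernel

theorem chunk8 : chunk 4 8 (idx321.drop 64) = true := by decide +kernel

theorem chunk14 : chunk 4 10 (idx321.drop 116) = true := by decide +kernel

theorem chunk20 : chunk 4 24 (idx321.drop 184) = true := by decide +kernel

end Vale.Agent.Borsuk
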