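import Vale.Agent.Borsuk.Table

/-! # P052: the search for cliques with six vertices, part 3 -/

namespace Vale.Agent.Borsuk

theorem chunk3 : chunk 4 8 (idx321.drop 24) = true := by decide +kernel

theorem chunk9 : chunk 4 8 (idx321.drop 72) = true := by decide +kernel

theorem chunk15 : chunk 4 10 (idx321.drop 126) = true := by decide +kernel

theorem chunk21 : chunk 4 24 (idx321.drop 208) = true := by decide +kernel

end Vale.Agent.Borsuk
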