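import Vale.Agent.Borsuk.Table

/-! # P052: the search for cliques with six vertices, part 5 -/

namespace Vale.Agent.Borsuk

theorem chunk5 : chunk 4 8 (idx321.drop 40) = true := by decide +kernel

theorem chunk11 : chunk 4 8 (idx321.drop 88) = true := by decide +kernel

theorem chunk17 : chunk 4 12 (idx321.drop 148) = true := by decide +kernel

end Vale.Agent.Borsuk
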