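import Vale.Agent.Borsuk.Spec
import Vale.Agent.Borsuk.Clq0
import Vale.Agent.Borsuk.Clq1
import Vale.Agent.Borsuk.Clq2
import Vale.Agent.Borsuk.Clq3
import Vale.Agent.Borsuk.Clq4
import Vale.Agent.Borsuk.Clq5

/-! # P052: there is no clique with six vertices among the first 321 vertices -/

namespace Vale.Agent.Borsuk

lemma drop_step (s n : ℕ) (h : chunk 4 n (idx321.drop s) = true)
    (h2 : noCl 5 (idx321.drop (s + n)) = true) : noCl 5 (idx321.drop s) = true := by
  refine noCl_of_chunk 4 n _ h ?_
  rwa [List.drop_drop]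

theorem noCl_idx321 : noCl 5 idx321 = true := by
  have h23 : noCl 5 (idx321.drop 321) = true := rfl
  have h22 := drop_step 232 89 chunk22 h23
  have h21 := drop_step 208 24 chunk21 h22
  have h20 := drop_step 184 24 chunk20 h21
  have h19 := drop_step 172 12 chunk19 h20
  have h18 := drop_step 160 12 chunk18 h19
  have h17 := drop_step 148 12 chunk17 h18
  have h16 := drop_step 136 12 chunk16 h17
  have h15 := drop_step 126 10 chunk15 h16
  have h14 := drop_step 116 10 chunk14 h15
  have h13 := drop_step 106 10 chunk13 h14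
  have h12 := drop_step 96 10 chunk12 h13
  have h11 := drop_step 88 8 chunk11 h12
  have h10 := drop_step 80 8 chunk10 h11
  have h9 := drop_step 72 8 chunk9 h10
  have h8 := drop_step 64 8 chunk8 h9
  have h7 := drop_step 56 8 chunk7 h8
  have h6 := drop_step 48 8 chunk6 h7
  have h5 := drop_step 40 8 chunk5 h6
  have h4 := drop_step 32 8 chunk4 h5
  have h3 := drop_step 24 8 chunk3 h4
  have h2 := drop_step 16 8 chunk2 h3
  have h1 := drop_step 8 8 chunk1 h2
  have h0 := drop_step 0 8 chunk0 h1
  exact h0

end Vale.Agent.Borsuk
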