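import Vale.Agent.Borsuk.Table

/-! # P052: the other tests -/

namespace Vale.Agent.Borsuk

theorem idx416_eq : idx416 = List.range' 0 416 := by decide +kernel

theorem idx321_eq : idx321 = List.range' 0 321 := by decide +kernel

theorem idx320_eq : idx320 = List.range' 0 320 := by decide +kernel

theorem idxA_eq : idxA = List.range' 320 32 := by decide +kernel

theorem idxB_eq : idxB = List.range' 352 32 := by decide +kernel

theorem cnt_ok : cntTest idx320 = true := by decide +kernel

theorem cnt_ok2 : (Nat.beq (cnt 320 idxA) 20 && Nat.beq (cnt 320 idxB) 0 &&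
    Nat.beq (cnt 352 idxA) 0 && Nat.beq (cnt 352 idxB) 20) = true := by decide +kernel

theorem bit01 : bitB 0 1 = 0 := by decide +kernel

theorem sym_ok : symTest idx416 = true := by decide +kernel

end Vale.Agent.Borsuk
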