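import Vale.Agent.Borsuk.Table

/-! # P052: the equation for the square of the adjacency matrix, part 0 -/

namespace Vale.Agent.Borsuk

theorem sq0 : sqTest 416 idx416 ((idx416.drop 0).take 52) = true := by decide +kernel

theorem sq1 : sqTest 416 idx416 ((idx416.drop 52).take 52) = true := by decide +kernel

end Vale.Agent.Borsuk
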