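import Vale.Agent.Borsuk.Geometry
import Vale.Agent.Borsuk.Clq
import Vale.Agent.Borsuk.Comp
import Vale.Agent.Borsuk.Sq0
import Vale.Agent.Borsuk.Sq1
import Vale.Agent.Borsuk.Sq2
import Vale.Agent.Borsuk.Sq3

/-!
# P052: the counterexample in dimension 63
-/

open Module

namespace Vale.Agent.Borsuk

lemma mem_idx416 {i : ℕ} (hi : i < 416) : i ∈ idx416 := by
  rw [idx416_eq, List.mem_range']
  exact ⟨i, hi, by simp⟩

lemma bit_irrefl {i : ℕ} (hi : i < 416) : bitB i i = 0 :=
  (symTest_mem _ sym_ok).1 i (mem_idx416 hi)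

lemma bit_symm {i j : ℕ} (hi : i < 416) (hj : j < 416) : bitB i j = bitB j i :=
  (symTest_mem _ sym_ok).2 i (mem_idx416 hi) j (mem_idx416 hj)

lemma mem_part {i s : ℕ} (h1 : s ≤ i) (h2 : i < s + 52) (h3 : s + 52 ≤ 416) :
    i ∈ (idx416.drop s).take 52 := by
  have h4 : (idx416.drop s).take 52 = List.range' s 52 := by
    rw [idx416_eq, List.drop_range', List.take_range'_of_length_ge (by omega)]
    simp
  rw [h4, List.mem_range']
  exact ⟨i - s, by omega, by omega⟩

lemma bit_sq {i j : ℕ} (hi : i < 416) (hj : j < 416) :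
    ∑ k ∈ Finset.range 416, bitB i k * bitB k j
      = 80 * (if i = j then 1 else 0) + 16 * bitB i j + 20 := by
  have key : ∀ s, s ≤ i → i < s + 52 → s + 52 ≤ 416 →
      sqTest 416 idx416 ((idx416.drop s).take 52) = true →
      ∑ k ∈ Finset.range 416, bitB i k * bitB k j
        = 80 * (if i = j then 1 else 0) + 16 * bitB i j + 20 := by
    intro s h1 h2 h3 h4
    exact sq_spec 416 (by norm_num) idx416 idx416_eq _ h4 i (mem_part h1 h2 h3) hi j hj
  rcases lt_or_ge i 52 with h | h
  · exact key 0 (by omega) (by omega) (by omega) sq0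
  rcases lt_or_ge i 104 with h | h
  · exact key 52 (by omega) (by omega) (by omega) sq1
  rcases lt_or_ge i 156 with h | h
  · exact key 104 (by omega) (by omega) (by omega) sq2
  rcases lt_or_ge i 208 with h | h
  · exact key 156 (by omega) (by omega) (by omega) sq3
  rcases lt_or_ge i 260 with h | h
  · exact key 208 (by omega) (by omega) (by omega) sq4
  rcases lt_or_ge i 312 with h | h
  · exact key 260 (by omega) (by omega) (by omega) sq5
  rcases lt_or_ge i 364 with h | h
  · exact key 312 (by omega) (by omega) (by omega) sq6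
  · exact key 364 (by omega) (by omega) (by omega) sq7

/-- The adjacency relation. -/
def Adj (i j : Fin 416) : Prop := bitB i j = 1

noncomputable instance : DecidableRel Adj := fun _ _ => Classical.dec _

/-- The adjacency matrix. -/
noncomputable def B : Matrix (Fin 416) (Fin 416) ℝ := fun i j => (bitB i j : ℝ)

/-- The all-one matrix. -/
noncomputable def Jm : Matrix (Fin 416) (Fin 416) ℝ := fun _ _ => 1

/-- The projection matrix. -/
noncomputable def E : Matrix (Fin 416) (Fin 416) ℝ :=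
  (1 / 96 : ℝ) • ((16 : ℝ) • (1 : Matrix (Fin 416) (Fin 416) ℝ) + (4 : ℝ) • B - Jm)

lemma bit_le (i j : ℕ) : bitB i j ≤ 1 := by
  have := dig_lt (tree.get i) j
  rw [← bitB_eq] at this
  omega

lemma E_apply (i j : Fin 416) :
    E i j = (16 * (if i = j then 1 else 0) + 4 * (bitB i j : ℝ) - 1) / 96 := by
  simp only [E, B, Jm, Matrix.smul_apply, Matrix.sub_apply, Matrix.add_apply, Matrix.one_apply,
    smul_eq_mul]
  ring

lemma E_eq (i j : Fin 416) : E i j = (if i = j then 15 else if Adj i j then 3 else -1) / 96 := by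
  rw [E_apply]
  by_cases h : i = j
  · subst h
    rw [bit_irrefl i.2]
    simp
    norm_num
  · simp only [if_neg h]
    by_cases h2 : Adj i j
    · rw [if_pos h2]
      have : bitB i j = 1 := h2
      rw [this]
      norm_num
    · rw [if_neg h2]
      have h3 : bitB i j ≠ 1 := h2
      have h4 : bitB i j = 0 := by have := bit_le i j; omega
      rw [h4]
      norm_num

lemma B_symm : B.transpose = B := by
  ext i j
  simp only [Matrix.transpose_apply, B]
  rw [bit_symm j.2 i.2]

lemma Jm_symm : Jm.transpose = Jm := rfl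

lemma E_symm : E.transpose = E := by
  unfold E
  rw [Matrix.transpose_smul, Matrix.transpose_sub, Matrix.transpose_add, Matrix.transpose_smul,
    Matrix.transpose_smul, Matrix.transpose_one, B_symm, Jm_symm]

lemma sum_bit {i : ℕ} (hi : i < 416) : ∑ k ∈ Finset.range 416, bitB i k = 100 := by
  have h := bit_sq hi hi
  rw [if_pos rfl, bit_irrefl hi] at h
  have h2 : ∑ k ∈ Finset.range 416, bitB i k * bitB k i = ∑ k ∈ Finset.range 416, bitB i k := by
    refine Finset.sum_congr rfl fun k hk => ?_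
    rw [bit_symm (Finset.mem_range.1 hk) hi]
    have := bit_le i k
    interval_cases bitB i k <;> rfl
  omega

lemma B_sq : B * B = (80 : ℝ) • (1 : Matrix (Fin 416) (Fin 416) ℝ) + (16 : ℝ) • B + (20 : ℝ) • Jm := by
  ext i j
  have h := bit_sq i.2 j.2
  rw [Finset.sum_range] at h
  have h2 : (B * B) i j = ((∑ k : Fin 416, bitB i k * bitB k j : ℕ) : ℝ) := by
    rw [Matrix.mul_apply]
    push_cast
    rfl
  rw [h2, h]
  simp only [B, Jm, Matrix.add_apply, Matrix.smul_apply, Matrix.one_apply, smul_eq_mul, mul_one]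
  by_cases hij : i = j
  · simp [hij]
  · have : ¬ ((i : ℕ) = (j : ℕ)) := fun h => hij (Fin.ext h)
    simp [hij, this]

lemma B_mul_Jm : B * Jm = (100 : ℝ) • Jm := by
  ext i j
  have h := sum_bit i.2
  rw [Finset.sum_range] at h
  have h2 : (B * Jm) i j = ((∑ k : Fin 416, bitB i k : ℕ) : ℝ) := by
    rw [Matrix.mul_apply]
    push_cast
    simp [B, Jm]
  rw [h2, h]
  simp [Jm]

lemma Jm_mul_B : Jm * B = (100 : ℝ) • Jm := by
  have h := congrArg Matrix.transpose B_mul_Jm
  rwa [Matrix.transpose_mul, Matrix.transpose_smul, B_symm, Jm_symm] at h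

lemma Jm_mul_Jm : Jm * Jm = (416 : ℝ) • Jm := by
  ext i j
  simp [Matrix.mul_apply, Jm]

lemma E_mul_E : E * E = E := by
  unfold E
  simp only [smul_mul_assoc, mul_smul_comm, mul_add, add_mul, mul_sub, sub_mul, B_sq, B_mul_Jm,
    Jm_mul_B, Jm_mul_Jm, one_mul, mul_one]
  module

lemma E_trace : E.trace = ((65 : ℕ) : ℝ) := by
  simp only [Matrix.trace, Matrix.diag_apply, E_eq]
  simp
  norm_num

/-- The blocks. -/
def bA : Finset (Fin 416) := Finset.univ.filter fun i => 320 ≤ i.val ∧ i.val < 352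

def bB : Finset (Fin 416) := Finset.univ.filter fun i => 352 ≤ i.val ∧ i.val < 384

lemma sum_block (s : ℕ) (hs : s + 32 ≤ 416) (f : ℕ → ℝ) :
    ∑ i ∈ Finset.univ.filter (fun i : Fin 416 => s ≤ i.val ∧ i.val < s + 32), f i
      = ∑ j ∈ Finset.Ico s (s + 32), f j := by
  refine Finset.sum_bij (fun i _ => i.val) ?_ ?_ ?_ ?_
  · intro i hi
    rw [Finset.mem_filter] at hi
    rw [Finset.mem_Ico]
    exact hi.2
  · intro i _ j _ h
    exact Fin.ext h
  · intro j hj
    rw [Finset.mem_Ico] at hj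
    exact ⟨⟨j, by omega⟩, by rw [Finset.mem_filter]; exact ⟨Finset.mem_univ _, hj⟩, rfl⟩
  · intro i _
    rfl

lemma sum_E_block (s : ℕ) (hs : s + 32 ≤ 416) (x : Fin 416) :
    ∑ i ∈ Finset.univ.filter (fun i : Fin 416 => s ≤ i.val ∧ i.val < s + 32), E i x
      = (16 * (if s ≤ x.val ∧ x.val < s + 32 then 1 else 0)
        + 4 * (cnt x (List.range' s 32) : ℝ) - 32) / 96 := by
  have h1 : ∀ i : Fin 416, E i x = (16 * (if i.val = x.val then 1 else 0)
      + 4 * (bitB x i : ℝ) - 1) / 96 := by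
    intro i
    rw [E_apply, bit_symm i.2 x.2]
    simp only [Fin.ext_iff]
  simp only [h1]
  rw [sum_block s hs (fun i => (16 * (if i = x.val then 1 else 0) + 4 * (bitB x i : ℝ) - 1) / 96),
    ← Finset.sum_div, Finset.sum_sub_distrib, Finset.sum_add_distrib, ← Finset.mul_sum,
    ← Finset.mul_sum, cnt_range']
  congr 2
  · congr 1
    · congr 1
      rw [Finset.sum_ite_eq' (Finset.Ico s (s + 32)) x.val (fun _ => (1 : ℝ))]
      simp only [Finset.mem_Ico]
    · push_cast
      rfl
  · simp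

lemma cnt_vals {x : ℕ} (hx : x < 320) :
    cnt x (List.range' 320 32) = 8 ∧ cnt x (List.range' 352 32) = 8 := by
  have h := cntTest_mem _ cnt_ok x (by
    rw [idx320_eq, List.mem_range']
    exact ⟨x, hx, by simp⟩)
  rwa [idxA_eq, idxB_eq] at h

lemma cnt_vals2 : cnt 320 (List.range' 320 32) = 20 ∧ cnt 320 (List.range' 352 32) = 0 ∧
    cnt 352 (List.range' 320 32) = 0 ∧ cnt 352 (List.range' 352 32) = 20 := by
  have h := cnt_ok2
  rw [Bool.and_eq_true, Bool.and_eq_true, Bool.and_eq_true, idxA_eq, idxB_eq] at h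
  exact ⟨Nat.eq_of_beq_eq_true h.1.1.1, Nat.eq_of_beq_eq_true h.1.1.2,
    Nat.eq_of_beq_eq_true h.1.2, Nat.eq_of_beq_eq_true h.2⟩

lemma finrank_L_eq : finrank ℝ (L E bA bB) = 63 := by
  have hR : finrank ℝ (R E) = 63 + 2 := finrank_R E E_mul_E E_trace
  have hg : ∀ x : Fin 416, gmap E bA bB ⟨y E x, y_mem E x⟩
      = (∑ i ∈ bA, E i x, ∑ i ∈ bB, E i x) := by
    intro x
    have e : gmap E bA bB ⟨y E x, y_mem E x⟩
        = (fsum E bA ⟨y E x, y_mem E x⟩, fsum E bB ⟨y E x, y_mem E x⟩) := rfl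
    rw [e, fsum_apply, fsum_apply]
    simp only [y_apply]
  obtain ⟨c1, c2, c3, c4⟩ := cnt_vals2
  refine finrank_L E bA bB hR (s := 64 / 96) (t := -32 / 96) (by norm_num)
    (v := ⟨y E ⟨320, by norm_num⟩, y_mem E _⟩) (w := ⟨y E ⟨352, by norm_num⟩, y_mem E _⟩) ?_ ?_
  · rw [hg]
    unfold bA bB
    rw [sum_E_block 320 (by norm_num), sum_E_block 352 (by norm_num), c1, c2]
    ext <;> norm_num
  · rw [hg]
    unfold bA bB
    rw [sum_E_block 320 (by norm_num), sum_E_block 352 (by norm_num), c3, c4]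
    ext <;> norm_num

lemma clique_le (S : Finset (Fin 416)) (hS : ∀ i ∈ S, i.val < 321)
    (hc : ∀ i ∈ S, ∀ j ∈ S, i ≠ j → Adj i j) : S.card ≤ 5 := by
  classical
  set l : List ℕ := (List.range' 0 321).filter (fun v => decide (v ∈ S.image Fin.val)) with hl
  have hsub : l.Sublist (List.range' 0 321) := List.filter_sublist
  have hpw : (List.range' 0 321).Pairwise (· < ·) := List.pairwise_lt_range'
  have hmem : ∀ v ∈ l, ∃ i ∈ S, i.val = v := by
    intro v hv
    rw [hl, List.mem_filter, decide_eq_true_eq, Finset.mem_image] at hv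
    exact hv.2
  have hpl : l.Pairwise (fun v w => bitB v w = 1) := by
    have h1 := hpw.sublist hsub
    refine h1.imp_of_mem ?_
    intro v w hv hw hvw
    obtain ⟨i, hi, rfl⟩ := hmem v hv
    obtain ⟨j, hj, rfl⟩ := hmem w hw
    exact hc i hi j hj fun h => by rw [h] at hvw; exact lt_irrefl _ hvw
  have hlen := noCl_spec 5 _ l (by rw [← idx321_eq]; exact noCl_idx321) hsub hpl
  have hnd : l.Nodup := (hpw.sublist hsub).imp fun h => ne_of_lt h
  have hcard : l.length = S.card := by
    rw [← List.toFinset_card_of_nodup hnd, ← Finset.card_image_of_injective S Fin.val_injective]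
    congr 1
    ext v
    rw [List.mem_toFinset, hl, List.mem_filter, decide_eq_true_eq]
    constructor
    · exact fun h => h.2
    · intro h
      refine ⟨?_, h⟩
      obtain ⟨i, hi, rfl⟩ := Finset.mem_image.1 h
      rw [List.mem_range']
      exact ⟨i.val, hS i hi, by simp⟩
  omega

lemma card_X : (Finset.univ.filter (fun i : Fin 416 => i.val < 320)).card = 320 := by
  have h : (Finset.univ.filter (fun i : Fin 416 => i.val < 320))
      = Finset.Iio (⟨320, by norm_num⟩ : Fin 416) := by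
    ext i
    simp [Fin.lt_def]
  rw [h, Fin.card_Iio]

/-- A finite set in the 63-dimensional Euclidean space that is not a union of 64 sets of smaller
diameter. -/
theorem counterexample : ∃ Y : Set (EuclideanSpace ℝ (Fin 63)), Y.Finite ∧ 0 < Metric.diam Y ∧
    ∀ P : Fin 64 → Set (EuclideanSpace ℝ (Fin 63)), Y = ⋃ i, P i →
      ∃ i, Metric.diam Y ≤ Metric.diam (P i) := by
  classical
  set X : Finset (Fin 416) := Finset.univ.filter (fun i => i.val < 320) with hX
  have hXm : ∀ i, i ∈ X ↔ i.val < 320 := by intro i; simp [hX]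
  set a : Fin 416 := ⟨320, by norm_num⟩ with ha
  have haX : a ∉ X := by rw [hXm]; simp [ha]
  obtain ⟨z, hz1, hz2, hz3⟩ := exists_points Adj E E_eq E_symm E_mul_E bA bB X a finrank_L_eq (by
    intro x hx
    rw [hXm] at hx
    obtain ⟨c1, c2⟩ := cnt_vals hx
    unfold bA bB
    rw [sum_E_block 320 (by norm_num), sum_E_block 352 (by norm_num), c1, c2]
    have h1 : ¬ (320 ≤ x.val ∧ x.val < 320 + 32) := by omega
    have h2 : ¬ (352 ≤ x.val ∧ x.val < 352 + 32) := by omega
    rw [if_neg h1, if_neg h2]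
    norm_num) haX
  have hlt : ∀ {u v : ℝ}, 0 ≤ v → u ^ 2 < v ^ 2 → u < v := fun h0 h => lt_of_pow_lt_pow_left₀ 2 h0 h
  set c : ℝ := Real.sqrt (1 / 3) with hc
  have hcsq : c ^ 2 = 1 / 3 := Real.sq_sqrt (by norm_num)
  have hc0 : 0 < c := Real.sqrt_pos.2 (by norm_num)
  have hle_of : ∀ u : ℝ, u ^ 2 ≤ 1 / 3 → u ≤ c := by
    intro u hu
    refine le_of_sq_le_sq ?_ hc0.le
    rw [hcsq]; exact hu
  have hsymAdj : ∀ i j : Fin 416, Adj i j → Adj j i := by
    intro i j h
    show bitB j i = 1
    rw [bit_symm j.2 i.2]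
    exact h
  set J : Finset (Fin 416) := insert a X with hJ
  have hJlt : ∀ i ∈ J, i.val < 321 := by
    intro i hi
    rw [hJ, Finset.mem_insert, hXm] at hi
    rcases hi with rfl | hi
    · simp [ha]
    · omega
  have hdist : ∀ i ∈ J, ∀ j ∈ J, i ≠ j → dist (z i) (z j) ^ 2 ≤ 1 / 3 ∧
      (dist (z i) (z j) ^ 2 < 1 / 3 → Adj i j) := by
    intro i hi j hj hne
    rw [hJ, Finset.mem_insert] at hi hj
    rcases hi with rfl | hi <;> rcases hj with rfl | hj
    · exact absurd rfl hne
    · by_cases hA : Adj a j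
      · exact ⟨(hz2 j hj hA).le, fun _ => hA⟩
      · refine ⟨(hz3 j hj hA).le, fun h => ?_⟩
        rw [hz3 j hj hA] at h
        exact absurd h (lt_irrefl _)
    · rw [dist_comm]
      by_cases hA : Adj a i
      · exact ⟨(hz2 i hi hA).le, fun _ => hsymAdj _ _ hA⟩
      · refine ⟨(hz3 i hi hA).le, fun h => ?_⟩
        rw [hz3 i hi hA] at h
        exact absurd h (lt_irrefl _)
    · rw [hz1 i hi j hj hne]
      by_cases hA : Adj i j
      · rw [if_pos hA]
        exact ⟨by norm_num, fun _ => hA⟩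
      · rw [if_neg hA]
        exact ⟨le_rfl, fun h => absurd h (lt_irrefl _)⟩
  refine counterexample_of_points z J Adj c hc0 ?_ ?_ ?_ 5 64 ?_ ?_
  · intro i hi j hj
    by_cases hne : i = j
    · rw [hne, dist_self]
      exact hc0.le
    · exact hle_of _ (hdist i hi j hj hne).1
  · intro i hi j hj hne h
    refine (hdist i hi j hj hne).2 ?_
    rw [← hcsq]
    exact pow_lt_pow_left₀ h dist_nonneg (by norm_num)
  · refine ⟨⟨0, by norm_num⟩, ?_, ⟨1, by norm_num⟩, ?_, ?_⟩
    · rw [hJ, Finset.mem_insert, hXm]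
      right
      norm_num
    · rw [hJ, Finset.mem_insert, hXm]
      right
      norm_num
    · have h1 := hz1 ⟨0, by norm_num⟩ ((hXm _).2 (by norm_num)) ⟨1, by norm_num⟩
        ((hXm _).2 (by norm_num)) (by simp [Fin.ext_iff])
      have h2 : ¬ Adj ⟨0, by norm_num⟩ ⟨1, by norm_num⟩ := by
        intro h
        have h3 : bitB 0 1 = 1 := h
        rw [bit01] at h3
        exact absurd h3 (by norm_num)
      rw [if_neg h2, ← hcsq] at h1
      exact (pow_left_inj₀ dist_nonneg hc0.le (by norm_num)).1 h1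
  · intro S hS hcl
    exact clique_le S (fun i hi => hJlt i (hS hi)) hcl
  · rw [hJ, Finset.card_insert_of_notMem haX, card_X]
    norm_num

end Vale.Agent.Borsuk
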