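import Mathlib

/-!
# P052: from a projection matrix to a Borsuk counterexample

Points with inner products `15, 3, -1` (in units of `1/96`) in a 63-dimensional space, plus one
rescaled projected point.
-/

open Module Submodule
open scoped InnerProductSpace

namespace Vale.Agent.Borsuk

variable {ι : Type*} [Fintype ι] [DecidableEq ι]

section

variable (E : Matrix ι ι ℝ)

/-- The linear map of the matrix. -/
noncomputable def T : EuclideanSpace ℝ ι →ₗ[ℝ] EuclideanSpace ℝ ι := Matrix.toEuclideanLin E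

/-- The columns of the matrix. -/
noncomputable def y (i : ι) : EuclideanSpace ℝ ι := T E (EuclideanSpace.single i 1)

lemma y_apply (i j : ι) : y E i j = E j i := by
  simp [y, T, Matrix.toLpLin_apply]

lemma T_comp (hE : E * E = E) (v : EuclideanSpace ℝ ι) : T E (T E v) = T E v := by
  have : (T E) ((T E) v) = Matrix.toEuclideanLin (E * E) v := by
    simp [T, Matrix.toLpLin_apply, Matrix.mulVec_mulVec]
  rw [this, hE]
  rfl

lemma inner_y (hsym : E.transpose = E) (hE : E * E = E) (i j : ι) : ⟪y E i, y E j⟫_ℝ = E i j := by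
  rw [PiLp.inner_apply]
  simp only [y_apply, RCLike.inner_apply, conj_trivial]
  have h1 : ∑ k, E k j * E k i = (E.transpose * E) i j := by
    rw [Matrix.mul_apply]
    exact Finset.sum_congr rfl fun k _ => by rw [Matrix.transpose_apply, mul_comm]
  rw [h1, hsym, hE]

/-- The range. -/
noncomputable def R : Submodule ℝ (EuclideanSpace ℝ ι) := LinearMap.range (T E)

lemma y_mem (i : ι) : y E i ∈ R E := ⟨_, rfl⟩

lemma finrank_R (hE : E * E = E) {D : ℕ} (htr : E.trace = D) : finrank ℝ (R E) = D := by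
  have hp : LinearMap.IsProj (R E) (T E) := by
    constructor
    · intro v; exact ⟨v, rfl⟩
    · rintro _ ⟨v, rfl⟩; exact T_comp E hE v
  have h1 := hp.trace
  have h2 : LinearMap.trace ℝ _ (T E) = E.trace := by
    have h3 : T E = Matrix.toLin (PiLp.basisFun 2 ℝ ι) (PiLp.basisFun 2 ℝ ι) E := by
      unfold T
      exact congrArg (fun f => f E) (Matrix.toLpLin_eq_toLin (n := ι) (m := ι) (R := ℝ) 2 2)
    rw [h3, Matrix.trace_toLin_eq]
  rw [h2, htr] at h1
  exact_mod_cast h1.symm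

/-- Sum of the coordinates in a finite set, as a functional on the range. -/
noncomputable def fsum (A : Finset ι) : R E →ₗ[ℝ] ℝ :=
  (∑ a ∈ A, (EuclideanSpace.proj a : EuclideanSpace ℝ ι →L[ℝ] ℝ).toLinearMap) ∘ₗ (R E).subtype

lemma fsum_apply (A : Finset ι) (v : R E) : fsum E A v = ∑ a ∈ A, (v : EuclideanSpace ℝ ι) a := by
  simp [fsum]

/-- Two functionals. -/
noncomputable def gmap (A B : Finset ι) : R E →ₗ[ℝ] ℝ × ℝ := (fsum E A).prod (fsum E B)

/-- The subspace where both functionals vanish. -/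
noncomputable def L0 (A B : Finset ι) : Submodule ℝ (R E) := LinearMap.ker (gmap E A B)

/-- The same subspace, in the ambient space. -/
noncomputable def L (A B : Finset ι) : Submodule ℝ (EuclideanSpace ℝ ι) :=
  (L0 E A B).map (R E).subtype

lemma finrank_L (A B : Finset ι) {D : ℕ} (hR : finrank ℝ (R E) = D + 2)
    {v w : R E} {s t : ℝ} (hst : s ^ 2 ≠ t ^ 2)
    (hv : gmap E A B v = (s, t)) (hw : gmap E A B w = (t, s)) :
    finrank ℝ (L E A B) = D := by
  have hsurj : LinearMap.range (gmap E A B) = ⊤ := by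
    rw [LinearMap.range_eq_top]
    rintro ⟨p, q⟩
    have hne : s ^ 2 - t ^ 2 ≠ 0 := sub_ne_zero.2 hst
    refine ⟨((p * s - q * t) / (s ^ 2 - t ^ 2)) • v + ((q * s - p * t) / (s ^ 2 - t ^ 2)) • w, ?_⟩
    rw [map_add, map_smul, map_smul, hv, hw]
    ext
    · simp only [Prod.smul_mk, Prod.mk_add_mk, smul_eq_mul]
      field_simp
      ring
    · simp only [Prod.smul_mk, Prod.mk_add_mk, smul_eq_mul]
      field_simp
      ring
  have h := LinearMap.finrank_range_add_finrank_ker (gmap E A B)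
  rw [hsurj, finrank_top, hR] at h
  have h2 : finrank ℝ (ℝ × ℝ) = 2 := by simp
  rw [h2] at h
  have h3 : finrank ℝ (L E A B) = finrank ℝ (L0 E A B) :=
    Submodule.finrank_map_subtype_eq _ _
  rw [h3]
  unfold L0
  omega

end

omit [Fintype ι] in
/-- From a family of points to a failure of Borsuk's partition property. -/
theorem counterexample_of_points {α : Type*} [PseudoMetricSpace α] (z : ι → α) (J : Finset ι)
    (near : ι → ι → Prop) (c : ℝ) (hc : 0 < c)
    (hle : ∀ i ∈ J, ∀ j ∈ J, dist (z i) (z j) ≤ c)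
    (hnear : ∀ i ∈ J, ∀ j ∈ J, i ≠ j → dist (z i) (z j) < c → near i j)
    (hfar : ∃ i ∈ J, ∃ j ∈ J, dist (z i) (z j) = c)
    (k m : ℕ)
    (hclique : ∀ S : Finset ι, S ⊆ J → (∀ i ∈ S, ∀ j ∈ S, i ≠ j → near i j) → S.card ≤ k)
    (hcard : m * k < J.card) :
    ∃ Y : Set α, Y.Finite ∧ 0 < Metric.diam Y ∧
      ∀ P : Fin m → Set α, Y = ⋃ i, P i → ∃ i, Metric.diam Y ≤ Metric.diam (P i) := by
  classical
  set Y : Set α := z '' (J : Set ι) with hY
  have hYfin : Y.Finite := (J.finite_toSet).image z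
  have hdiam_le : Metric.diam Y ≤ c := by
    refine Metric.diam_le_of_forall_dist_le hc.le ?_
    rintro _ ⟨i, hi, rfl⟩ _ ⟨j, hj, rfl⟩
    exact hle i (by exact_mod_cast hi) j (by exact_mod_cast hj)
  have hc_le : c ≤ Metric.diam Y := by
    obtain ⟨i, hi, j, hj, h⟩ := hfar
    rw [← h]
    exact Metric.dist_le_diam_of_mem hYfin.isBounded ⟨i, by exact_mod_cast hi, rfl⟩
      ⟨j, by exact_mod_cast hj, rfl⟩
  refine ⟨Y, hYfin, lt_of_lt_of_le hc hc_le, ?_⟩
  intro P hP
  by_contra hcon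
  push Not at hcon
  have hcover : J ⊆ Finset.univ.biUnion (fun i : Fin m => J.filter (fun x => z x ∈ P i)) := by
    intro x hx
    have : z x ∈ Y := ⟨x, by exact_mod_cast hx, rfl⟩
    rw [hP, Set.mem_iUnion] at this
    obtain ⟨i, hi⟩ := this
    rw [Finset.mem_biUnion]
    exact ⟨i, Finset.mem_univ _, Finset.mem_filter.2 ⟨hx, hi⟩⟩
  have hk : ∀ i : Fin m, (J.filter (fun x => z x ∈ P i)).card ≤ k := by
    intro i
    refine hclique _ (Finset.filter_subset _ _) ?_
    intro x hx w hw hne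
    rw [Finset.mem_filter] at hx hw
    refine hnear x hx.1 w hw.1 hne ?_
    have hPi : P i ⊆ Y := by rw [hP]; exact Set.subset_iUnion P i
    calc dist (z x) (z w) ≤ Metric.diam (P i) :=
          Metric.dist_le_diam_of_mem (hYfin.subset hPi).isBounded hx.2 hw.2
      _ < Metric.diam Y := hcon i
      _ ≤ c := hdiam_le
  have h1 := (Finset.card_le_card hcover).trans Finset.card_biUnion_le
  have h2 : ∑ i : Fin m, (J.filter (fun x => z x ∈ P i)).card ≤ m * k := by
    refine (Finset.sum_le_card_nsmul _ _ k fun i _ => hk i).trans ?_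
    simp
  omega

/-- The quadratic equation for the rescaling factor. -/
lemma exists_scale {t : ℝ} (ht : 0 ≤ t) : ∃ l : ℝ, 0 < l ∧ l ^ 2 * t + l / 48 = 17 / 96 := by
  have hcont : ContinuousOn (fun l : ℝ => l ^ 2 * t + l / 48) (Set.Icc 0 (17 / 2)) := by
    fun_prop
  have h := intermediate_value_Icc (by norm_num : (0:ℝ) ≤ 17 / 2) hcont
  have hmem : (17 / 96 : ℝ) ∈ Set.Icc ((fun l : ℝ => l ^ 2 * t + l / 48) 0)
      ((fun l : ℝ => l ^ 2 * t + l / 48) (17 / 2)) := by
    constructor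
    · norm_num
    · simp only
      nlinarith
  obtain ⟨l, hl, hl2⟩ := h hmem
  simp only at hl2
  refine ⟨l, lt_of_le_of_ne hl.1 ?_, hl2⟩
  rintro rfl
  norm_num at hl2

omit [Fintype ι] in
/-- The points, from vectors with the right inner products. -/
theorem exists_points_abstract (adj : ι → ι → Prop) [DecidableRel adj] (E : ι → ι → ℝ)
    (hE : ∀ i j, E i j = (if i = j then 15 else if adj i j then 3 else -1) / 96)
    (X : Finset ι) (a : ι) (ha : a ∉ X) {D : ℕ}
    {F : Type*} [NormedAddCommGroup F] [InnerProductSpace ℝ F] [FiniteDimensional ℝ F]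
    (hF : finrank ℝ F = D) (u : ι → F) (q : F)
    (hinner : ∀ x ∈ X, ∀ w ∈ X, ⟪u x, u w⟫_ℝ = E x w)
    (hq : ∀ x ∈ X, ⟪q, u x⟫_ℝ = E a x) :
    ∃ z : ι → EuclideanSpace ℝ (Fin D),
      (∀ x ∈ X, ∀ w ∈ X, x ≠ w → dist (z x) (z w) ^ 2 = if adj x w then 1 / 4 else 1 / 3) ∧
      (∀ x ∈ X, adj a x → dist (z a) (z x) ^ 2 < 1 / 3) ∧
      (∀ x ∈ X, ¬ adj a x → dist (z a) (z x) ^ 2 = 1 / 3) := by
  classical
  obtain ⟨l, hl0, hl⟩ := exists_scale (t := ‖q‖ ^ 2) (by positivity)
  set z0 : ι → F := fun x => if x ∈ X then u x else l • q with hz0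
  have hz0x : ∀ x ∈ X, z0 x = u x := by
    intro x h
    simp only [hz0, if_pos h]
  have hz0a : z0 a = l • q := by
    simp only [hz0, if_neg ha]
  have hinner' : ∀ x ∈ X, ∀ w ∈ X, ⟪z0 x, z0 w⟫_ℝ = E x w := by
    intro x hx w hw
    rw [hz0x x hx, hz0x w hw]
    exact hinner x hx w hw
  have hinnera : ∀ x ∈ X, ⟪z0 a, z0 x⟫_ℝ = l * E a x := by
    intro x hx
    rw [hz0a, real_inner_smul_left, hz0x x hx, hq x hx]
  -- transport to the standard space
  let b := (stdOrthonormalBasis ℝ F).reindex (finCongr hF)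
  have hdist : ∀ v w : F, dist (b.repr v) (b.repr w) ^ 2
      = ‖v‖ ^ 2 - 2 * ⟪v, w⟫_ℝ + ‖w‖ ^ 2 := by
    intro v w
    rw [b.repr.dist_map, dist_eq_norm, @norm_sub_sq_real]
  have hnorm : ∀ x ∈ X, ‖z0 x‖ ^ 2 = 15 / 96 := by
    intro x hx
    rw [← real_inner_self_eq_norm_sq, hinner' x hx x hx, hE]
    simp
  have hnorma : ‖z0 a‖ ^ 2 = l ^ 2 * ‖q‖ ^ 2 := by
    rw [hz0a, norm_smul, mul_pow, Real.norm_eq_abs, sq_abs]
  refine ⟨fun x => b.repr (z0 x), ?_, ?_, ?_⟩
  · intro x hx w hw hne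
    rw [hdist, hnorm x hx, hnorm w hw, hinner' x hx w hw, hE]
    simp only [if_neg hne]
    split_ifs <;> norm_num
  · intro x hx hadj
    have hne : a ≠ x := fun h => ha (h ▸ hx)
    rw [hdist, hnorm x hx, hinnera x hx, hE, hnorma]
    simp only [if_neg hne, if_pos hadj]
    nlinarith
  · intro x hx hadj
    have hne : a ≠ x := fun h => ha (h ▸ hx)
    rw [hdist, hnorm x hx, hinnera x hx, hE, hnorma]
    simp only [if_neg hne, if_neg hadj]
    linarith

/-- The points. -/
theorem exists_points (adj : ι → ι → Prop) [DecidableRel adj] (E : Matrix ι ι ℝ)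
    (hE : ∀ i j, E i j = (if i = j then 15 else if adj i j then 3 else -1) / 96)
    (hsym : E.transpose = E) (hEE : E * E = E) (A B X : Finset ι) (a : ι) {D : ℕ}
    (hL : finrank ℝ (L E A B) = D)
    (hX : ∀ x ∈ X, ∑ i ∈ A, E i x = 0 ∧ ∑ i ∈ B, E i x = 0) (ha : a ∉ X) :
    ∃ z : ι → EuclideanSpace ℝ (Fin D),
      (∀ x ∈ X, ∀ w ∈ X, x ≠ w → dist (z x) (z w) ^ 2 = if adj x w then 1 / 4 else 1 / 3) ∧
      (∀ x ∈ X, adj a x → dist (z a) (z x) ^ 2 < 1 / 3) ∧
      (∀ x ∈ X, ¬ adj a x → dist (z a) (z x) ^ 2 = 1 / 3) := by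
  classical
  have hmem : ∀ x ∈ X, y E x ∈ L E A B := by
    intro x hx
    refine ⟨⟨y E x, y_mem E x⟩, ?_, rfl⟩
    show (⟨y E x, y_mem E x⟩ : R E) ∈ LinearMap.ker (gmap E A B)
    rw [LinearMap.mem_ker]
    have e : gmap E A B ⟨y E x, y_mem E x⟩
        = (fsum E A ⟨y E x, y_mem E x⟩, fsum E B ⟨y E x, y_mem E x⟩) := rfl
    rw [e, fsum_apply, fsum_apply]
    simp only [y_apply]
    rw [(hX x hx).1, (hX x hx).2]
    rfl
  set q : L E A B := (L E A B).orthogonalProjectionOnto (y E a) with hq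
  set u : ι → L E A B := fun x => if h : x ∈ X then ⟨y E x, hmem x h⟩ else 0 with hu
  have hux : ∀ x (h : x ∈ X), u x = ⟨y E x, hmem x h⟩ := by
    intro x h
    simp only [hu, dif_pos h]
  refine exists_points_abstract adj E hE X a ha hL u q ?_ ?_
  · intro x hx w hw
    rw [hux x hx, hux w hw]
    exact inner_y E hsym hEE x w
  · intro x hx
    rw [hux x hx, hq, inner_orthogonalProjectionOnto_eq_of_mem_right]
    exact inner_y E hsym hEE a x

end Vale.Agent.Borsuk
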