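import Vale.Agent.Borsuk.Table

/-!
# P052: what the kernel friendly tests say
-/

namespace Vale.Agent.Borsuk

/-! ### Cliques -/

lemma noCl_zero_cons (v : ℕ) (c : List ℕ) : noCl 0 (v :: c) = false := rfl

lemma noCl_succ_nil (k : ℕ) : noCl (k + 1) [] = true := rfl

lemma noCl_succ_cons (k v : ℕ) (c : List ℕ) :
    noCl (k + 1) (v :: c) = (noCl k (filt (tree.get v) c) && noCl (k + 1) c) := rfl

lemma chunk_zero (k : ℕ) (c : List ℕ) : chunk k 0 c = true := rfl

lemma chunk_nil (k n : ℕ) : chunk k (n + 1) [] = true := rfl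

lemma chunk_cons (k n v : ℕ) (c : List ℕ) :
    chunk k (n + 1) (v :: c) = (noCl k (filt (tree.get v) c) && chunk k n c) := rfl

lemma filt_nil (r : ℕ) : filt r [] = [] := rfl

lemma filt_cons (r w : ℕ) (c : List ℕ) :
    filt r (w :: c) = cond (Nat.beq (Nat.land (Nat.shiftRight r w) 1) 1) (w :: filt r c) (filt r c) :=
  rfl

lemma noCl_of_chunk (k n : ℕ) : ∀ c : List ℕ, chunk k n c = true →
    noCl (k + 1) (c.drop n) = true → noCl (k + 1) c = true := by
  induction n with
  | zero => intro c _ h; simpa using h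
  | succ n ih =>
    intro c h1 h2
    cases c with
    | nil => rfl
    | cons v c =>
      rw [chunk_cons, Bool.and_eq_true] at h1
      rw [noCl_succ_cons, Bool.and_eq_true]
      exact ⟨h1.1, ih c h1.2 (by simpa using h2)⟩

lemma sublist_filt {r : ℕ} {c l : List ℕ} (h : l.Sublist c)
    (hl : ∀ w ∈ l, Nat.land (Nat.shiftRight r w) 1 = 1) : l.Sublist (filt r c) := by
  induction h with
  | slnil => exact List.Sublist.slnil
  | @cons l c w hs ih =>
    rw [filt_cons]
    cases Nat.beq (Nat.land (Nat.shiftRight r w) 1) 1 with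
    | true => exact (ih hl).cons _
    | false => exact ih hl
  | @cons_cons l c w hs ih =>
    rw [filt_cons]
    have h1 : Nat.beq (Nat.land (Nat.shiftRight r w) 1) 1 = true := by
      rw [hl w (by simp)]
      rfl
    rw [h1]
    exact (ih fun x hx => hl x (by simp [hx])).cons_cons _

theorem noCl_spec (k : ℕ) : ∀ (c l : List ℕ), noCl k c = true → l.Sublist c →
    l.Pairwise (fun v w => bitB v w = 1) → l.length ≤ k := by
  induction k with
  | zero =>
    intro c l h hs _
    cases c with
    | nil => simp [List.sublist_nil.1 hs]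
    | cons v c => rw [noCl_zero_cons] at h; exact absurd h (by simp)
  | succ k ihk =>
    intro c
    induction c with
    | nil => intro l _ hs _; simp [List.sublist_nil.1 hs]
    | cons v c ihc =>
      intro l h hs hp
      rw [noCl_succ_cons, Bool.and_eq_true] at h
      cases hs with
      | cons _ hs' => exact ihc l h.2 hs' hp
      | @cons_cons l' _ _ hs' =>
        rw [List.pairwise_cons] at hp
        have := ihk _ l' h.1 (sublist_filt hs' fun w hw => hp.1 w hw) hp.2
        simp only [List.length_cons]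
        omega

/-! ### The equation for the square -/

/-- Binary digit. -/
def dig (r j : ℕ) : ℕ := r / 2 ^ j % 2

lemma bitB_eq (v w : ℕ) : bitB v w = dig (tree.get v) w := by
  unfold bitB dig
  have h1 : Nat.land (Nat.shiftRight (tree.get v) w) 1 = (tree.get v >>> w) &&& 1 := rfl
  rw [h1, Nat.and_one_is_mod, Nat.shiftRight_eq_div_pow]

lemma dig_lt (r j : ℕ) : dig r j < 2 := Nat.mod_lt _ (by norm_num)

lemma dig_zero (r : ℕ) : dig r 0 = r % 2 := by simp [dig]

lemma dig_succ (r j : ℕ) : dig r (j + 1) = dig (r / 2) j := by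
  unfold dig
  rw [pow_succ', Nat.div_div_eq_div_mul]

lemma spread_succ (n r : ℕ) : spread (n + 1) r = r % 2 + 1024 * spread n (r / 2) := rfl

lemma spread_eq (n : ℕ) : ∀ r : ℕ, spread n r = ∑ j ∈ Finset.range n, dig r j * 1024 ^ j := by
  induction n with
  | zero => intro r; rfl
  | succ n ih =>
    intro r
    rw [spread_succ, ih, Finset.sum_range_succ', dig_zero, Finset.mul_sum, pow_zero, mul_one,
      add_comm]
    congr 1
    refine Finset.sum_congr rfl fun j _ => ?_
    rw [dig_succ, pow_succ']
    ring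

lemma lsum_cons (N k : ℕ) (l : List ℕ) (r : ℕ) :
    lsum N (k :: l) r = r % 2 * spread N (tree.get k) + lsum N l (r / 2) := rfl

lemma lsum_range' (N n : ℕ) : ∀ s r : ℕ, lsum N (List.range' s n) r
    = ∑ j ∈ Finset.range n, dig r j * spread N (tree.get (s + j)) := by
  induction n with
  | zero => intro s r; rfl
  | succ n ih =>
    intro s r
    rw [List.range'_succ, lsum_cons, ih, Finset.sum_range_succ', dig_zero, add_zero, add_comm]
    congr 1
    refine Finset.sum_congr rfl fun j _ => ?_
    rw [dig_succ, add_right_comm, add_assoc]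

lemma digits_unique (b : ℕ) (hb : 0 < b) (n : ℕ) : ∀ (f g : ℕ → ℕ), (∀ j, j < n → f j < b) →
    (∀ j, j < n → g j < b) →
    ∑ j ∈ Finset.range n, f j * b ^ j = ∑ j ∈ Finset.range n, g j * b ^ j →
    ∀ j, j < n → f j = g j := by
  induction n with
  | zero => intro f g _ _ _ j hj; omega
  | succ n ih =>
    intro f g hf hg h j hj
    rw [Finset.sum_range_succ', Finset.sum_range_succ'] at h
    have key : ∀ u : ℕ → ℕ, ∑ j ∈ Finset.range n, u (j + 1) * b ^ (j + 1)
        = b * ∑ j ∈ Finset.range n, u (j + 1) * b ^ j := by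
      intro u
      rw [Finset.mul_sum]
      refine Finset.sum_congr rfl fun j _ => ?_
      rw [pow_succ]
      ring
    rw [key f, key g, pow_zero, mul_one, mul_one] at h
    have h0 : f 0 = g 0 := by
      have h1 := congrArg (· % b) h
      simp only [Nat.mul_add_mod] at h1
      rwa [Nat.mod_eq_of_lt (hf 0 (by omega)), Nat.mod_eq_of_lt (hg 0 (by omega))] at h1
    cases j with
    | zero => exact h0
    | succ j =>
      rw [h0] at h
      have h2 := Nat.eq_of_mul_eq_mul_left hb (Nat.add_right_cancel h)
      exact ih (fun j => f (j + 1)) (fun j => g (j + 1)) (fun j hj => hf _ (by omega))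
        (fun j hj => hg _ (by omega)) h2 j (by omega)

lemma sqTest_cons (N : ℕ) (idx : List ℕ) (i : ℕ) (l : List ℕ) : sqTest N idx (i :: l)
    = (Nat.beq (lsum N idx (tree.get i)) (80 * 1024 ^ i + (16 * spread N (tree.get i)
        + 20 * ((1024 ^ N - 1) / 1023))) && sqTest N idx l) := rfl

lemma sqTest_mem (N : ℕ) (idx : List ℕ) : ∀ (l : List ℕ), sqTest N idx l = true → ∀ i ∈ l,
    lsum N idx (tree.get i) = 80 * 1024 ^ i + (16 * spread N (tree.get i)
        + 20 * ((1024 ^ N - 1) / 1023)) := by
  intro l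
  induction l with
  | nil => intro _ i hi; simp at hi
  | cons v l ih =>
    intro h i hi
    rw [sqTest_cons, Bool.and_eq_true] at h
    rw [List.mem_cons] at hi
    rcases hi with rfl | hi
    · exact Nat.eq_of_beq_eq_true h.1
    · exact ih h.2 i hi

lemma geom_div (n : ℕ) : (1024 ^ n - 1) / 1023 = ∑ j ∈ Finset.range n, 1024 ^ j := by
  have h := Nat.geomSum_eq (m := 1024) (by norm_num) n
  rw [h]

/-- The equation for the square of the adjacency matrix. -/
theorem sq_spec (N : ℕ) (hN : N < 1024) (idx : List ℕ) (hidx : idx = List.range' 0 N) (l : List ℕ)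
    (h : sqTest N idx l = true) (i : ℕ)
    (hi : i ∈ l) (hi2 : i < N) (j : ℕ) (hj : j < N) :
    ∑ k ∈ Finset.range N, bitB i k * bitB k j
      = 80 * (if i = j then 1 else 0) + 16 * bitB i j + 20 := by
  have h1 := sqTest_mem N idx l h i hi
  rw [hidx, lsum_range', geom_div] at h1
  simp only [zero_add, spread_eq] at h1
  have hL : ∑ k ∈ Finset.range N, dig (tree.get i) k *
        ∑ j ∈ Finset.range N, dig (tree.get k) j * 1024 ^ j
      = ∑ j ∈ Finset.range N, (∑ k ∈ Finset.range N, bitB i k * bitB k j) * 1024 ^ j := by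
    simp only [Finset.mul_sum, Finset.sum_mul, bitB_eq]
    rw [Finset.sum_comm]
    exact Finset.sum_congr rfl fun j _ => Finset.sum_congr rfl fun k _ => by ring
  have hR : 80 * 1024 ^ i + (16 * ∑ j ∈ Finset.range N, dig (tree.get i) j * 1024 ^ j
        + 20 * ∑ j ∈ Finset.range N, 1024 ^ j)
      = ∑ j ∈ Finset.range N, (80 * (if i = j then 1 else 0) + 16 * bitB i j + 20) * 1024 ^ j := by
    simp only [add_mul, Finset.sum_add_distrib, bitB_eq, Finset.mul_sum]
    have h3 : ∑ j ∈ Finset.range N, 80 * (if i = j then 1 else 0) * 1024 ^ j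
        = 80 * 1024 ^ i := by
      rw [Finset.sum_eq_single i]
      · simp
      · intro b _ hb
        rw [if_neg (Ne.symm hb)]
        simp
      · intro hn
        exact absurd (Finset.mem_range.2 hi2) hn
    rw [h3]
    simp only [mul_assoc, add_assoc]
  rw [hL, hR] at h1
  refine digits_unique 1024 (by norm_num) N _ _ ?_ ?_ h1 j hj
  · intro j _
    calc ∑ k ∈ Finset.range N, bitB i k * bitB k j ≤ ∑ k ∈ Finset.range N, 1 := by
          refine Finset.sum_le_sum fun k _ => ?_
          have e1 := dig_lt (tree.get i) k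
          have e2 := dig_lt (tree.get k) j
          rw [← bitB_eq] at e1 e2
          have e3 : bitB i k ≤ 1 := by omega
          have e4 : bitB k j ≤ 1 := by omega
          calc bitB i k * bitB k j ≤ 1 * 1 := Nat.mul_le_mul e3 e4
            _ = 1 := by norm_num
      _ < 1024 := by simpa using hN
  · intro j _
    have e1 := dig_lt (tree.get i) j
    rw [← bitB_eq] at e1
    split_ifs <;> omega

/-! ### Symmetry -/

lemma symRow_cons (v w : ℕ) (l : List ℕ) :
    symRow v (w :: l) = (Nat.beq (bitB v w) (bitB w v) && symRow v l) := rfl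

lemma symRow_mem (v : ℕ) : ∀ l : List ℕ, symRow v l = true → ∀ w ∈ l, bitB v w = bitB w v := by
  intro l
  induction l with
  | nil => intro _ w hw; simp at hw
  | cons u l ih =>
    intro h w hw
    rw [symRow_cons, Bool.and_eq_true] at h
    rw [List.mem_cons] at hw
    rcases hw with rfl | hw
    · exact Nat.eq_of_beq_eq_true h.1
    · exact ih h.2 w hw

lemma symTest_cons (v : ℕ) (l : List ℕ) :
    symTest (v :: l) = (Nat.beq (bitB v v) 0 && (symRow v l && symTest l)) := rfl

lemma symTest_mem : ∀ l : List ℕ, symTest l = true →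
    (∀ v ∈ l, bitB v v = 0) ∧ ∀ v ∈ l, ∀ w ∈ l, bitB v w = bitB w v := by
  intro l
  induction l with
  | nil => intro _; simp
  | cons u l ih =>
    intro h
    rw [symTest_cons, Bool.and_eq_true, Bool.and_eq_true] at h
    have ih' := ih h.2.2
    have hr := symRow_mem u l h.2.1
    refine ⟨?_, ?_⟩
    · intro v hv
      rw [List.mem_cons] at hv
      rcases hv with rfl | hv
      · exact Nat.eq_of_beq_eq_true h.1
      · exact ih'.1 v hv
    · intro v hv w hw
      rw [List.mem_cons] at hv hw
      rcases hv with rfl | hv <;> rcases hw with rfl | hw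
      · rfl
      · exact hr w hw
      · exact (hr v hv).symm
      · exact ih'.2 v hv w hw

/-! ### Numbers of neighbours -/

lemma cnt_cons (v w : ℕ) (l : List ℕ) : cnt v (w :: l) = bitB v w + cnt v l := rfl

lemma cnt_range' (v n : ℕ) : ∀ s : ℕ, cnt v (List.range' s n)
    = ∑ j ∈ Finset.Ico s (s + n), bitB v j := by
  induction n with
  | zero => intro s; simp [cnt]
  | succ n ih =>
    intro s
    have h2 : s + (n + 1) = s + 1 + n := by omega
    have h3 : s < s + 1 + n := by omega
    rw [List.range'_succ, cnt_cons, ih, h2, Finset.sum_eq_sum_Ico_succ_bot h3]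

lemma cntTest_cons (v : ℕ) (l : List ℕ) : cntTest (v :: l)
    = (Nat.beq (cnt v idxA) 8 && (Nat.beq (cnt v idxB) 8 && cntTest l)) := rfl

lemma cntTest_mem : ∀ l : List ℕ, cntTest l = true → ∀ v ∈ l, cnt v idxA = 8 ∧ cnt v idxB = 8 := by
  intro l
  induction l with
  | nil => intro _ w hw; simp at hw
  | cons u l ih =>
    intro h w hw
    rw [cntTest_cons, Bool.and_eq_true, Bool.and_eq_true] at h
    rw [List.mem_cons] at hw
    rcases hw with rfl | hw
    · exact ⟨Nat.eq_of_beq_eq_true h.1, Nat.eq_of_beq_eq_true h.2.1⟩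
    · exact ih h.2.2 w hw

end Vale.Agent.Borsuk
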